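import Crest.Agent.R269.V.V1

/-!
# Row 269, block Moll, part A: mollification in `ℂⁿ` (helper22)
-/

set_option autoImplicit false
set_option linter.unusedSectionVars false
set_option linter.unusedVariables false

noncomputable section

namespace Crest.Agent.R269.Mo

open Set Metric Filter Topology MeasureTheory ContinuousLinearMap
open scoped InnerProductSpace ContDiff Convolution

variable {n : ℕ}

/-- directional derivative -/
def dd (f : Cn n → ℝ) (v : Cn n) : Cn n → ℝ := fun y => fderiv ℝ f y v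

theorem dd_smooth {f : Cn n → ℝ} (hf : ContDiff ℝ ∞ f) (v : Cn n) : ContDiff ℝ ∞ (dd f v) :=
  (hf.fderiv_right (m := ∞) (by simp)).clm_apply contDiff_const

theorem dd_supp {f : Cn n → ℝ} (hf : HasCompactSupport f) (v : Cn n) : HasCompactSupport (dd f v) :=
  hf.fderiv_apply ℝ v

theorem dd_dd {f : Cn n → ℝ} (hf : ContDiff ℝ ∞ f) (x v w : Cn n) :
    fderiv ℝ (fderiv ℝ f) x v w = dd (dd f w) v x := by
  have h : DifferentiableAt ℝ (fderiv ℝ f) x :=
    (hf.fderiv_right (m := ∞) (by simp)).differentiable (by simp) x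
  show _ = fderiv ℝ (fun y => fderiv ℝ f y w) x v
  rw [fderiv_clm_apply h (differentiableAt_const _)]
  simp

theorem levi_dd {f : Cn n → ℝ} (hf : ContDiff ℝ ∞ f) (x v : Cn n) :
    levi f x v = (dd (dd f v) v x + dd (dd f (Complex.I • v)) (Complex.I • v) x) / 4 := by
  rw [levi, dd_dd hf, dd_dd hf]

theorem dd_refl {f : Cn n → ℝ} (hf : ContDiff ℝ ∞ f) (s : ℝ) (x v : Cn n) :
    dd (fun w => s * f (x - w)) v = fun w => -s * dd f v (x - w) := by
  funext w
  have h := (((hf.differentiable (by simp) (x - w)).hasFDerivAt.comp w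
    ((hasFDerivAt_id w).const_sub x)).const_mul s).fderiv
  show fderiv ℝ (fun w => s * f (x - w)) w v = _
  erw [h]
  simp [dd]

theorem levi_refl {f : Cn n → ℝ} (hf : ContDiff ℝ ∞ f) (x w v : Cn n) :
    levi (fun w => f (x - w)) w v = levi f (x - w) v := by
  have e : (fun w => f (x - w)) = fun w => 1 * f (x - w) := by simp
  rw [levi_dd (f := fun w => f (x - w)) (hf.comp (contDiff_const.sub contDiff_id)), levi_dd hf]
  have h : ∀ u, dd (dd (fun w => f (x - w)) u) u w = dd (dd f u) u (x - w) := fun u => by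
    rw [e, dd_refl hf, dd_refl (dd_smooth hf u)]
    simp
  rw [h, h]

/-- convolution -/
def cv (g ρ : Cn n → ℝ) : Cn n → ℝ := g ⋆[mul ℝ ℝ, volume] ρ

theorem cv_apply (g ρ : Cn n → ℝ) (x : Cn n) : cv g ρ x = ∫ w, g w * ρ (x - w) := rfl

theorem cv_smooth {g ρ : Cn n → ℝ} (hg : LocallyIntegrable g) (hρ : ContDiff ℝ ∞ ρ) (hc : HasCompactSupport ρ) :
    ContDiff ℝ ∞ (cv g ρ) := hc.contDiff_convolution_right _ hg hρ

theorem dd_cv {g ρ : Cn n → ℝ} (hg : LocallyIntegrable g) (hρ : ContDiff ℝ ∞ ρ) (hc : HasCompactSupport ρ)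
    (v : Cn n) : dd (cv g ρ) v = cv g (dd ρ v) := by
  funext x
  have h1 : ContDiff ℝ 1 ρ := hρ.of_le (by simp)
  show fderiv ℝ (g ⋆[mul ℝ ℝ, volume] ρ) x v = _
  rw [(hc.hasFDerivAt_convolution_right _ hg h1 x).fderiv,
    convolution_precompR_apply _ hg (hc.fderiv ℝ) (h1.continuous_fderiv one_ne_zero)]
  rfl

theorem int_cv {g ρ : Cn n → ℝ} (hg : LocallyIntegrable g) (hρ : Continuous ρ) (hc : HasCompactSupport ρ)
    (x : Cn n) : Integrable fun w => g w * ρ (x - w) :=
  hc.convolutionExists_right (mul ℝ ℝ) hg hρ x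

theorem levi_cv {g ρ : Cn n → ℝ} (hg : LocallyIntegrable g) (hρ : ContDiff ℝ ∞ ρ) (hc : HasCompactSupport ρ)
    (x v : Cn n) : Integrable (fun w => g w * levi ρ (x - w) v) ∧
      levi (cv g ρ) x v = ∫ w, g w * levi ρ (x - w) v := by
  have i := fun u => int_cv hg (dd_smooth (dd_smooth hρ u) u).continuous (dd_supp (dd_supp hc u) u) x
  have e : (fun w => g w * levi ρ (x - w) v) = fun w => (g w * dd (dd ρ v) v (x - w) +
      g w * dd (dd ρ (Complex.I • v)) (Complex.I • v) (x - w)) / 4 := by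
    funext w
    rw [levi_dd hρ]
    ring
  refine ⟨e ▸ ((i v).add (i _)).div_const 4, ?_⟩
  rw [levi_dd (cv_smooth hg hρ hc), dd_cv hg hρ hc, dd_cv hg hρ hc, dd_cv hg (dd_smooth hρ _) (dd_supp hc _),
    dd_cv hg (dd_smooth hρ _) (dd_supp hc _), e, integral_div, integral_add (i v) (i _)]
  rfl

/-- mollification by a bump function -/
def mo (b : ContDiffBump (0 : Cn n)) (g : Cn n → ℝ) : Cn n → ℝ := cv g (b.normed volume)

variable (b : ContDiffBump (0 : Cn n))

theorem mo_eq (g : Cn n → ℝ) : mo b g = b.normed volume ⋆[lsmul ℝ ℝ, volume] g := by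
  funext x
  rw [convolution_lsmul_swap, mo, cv_apply]
  simp [mul_comm]

theorem mo_smooth {g : Cn n → ℝ} (hg : LocallyIntegrable g) : ContDiff ℝ ∞ (mo b g) :=
  cv_smooth hg b.contDiff_normed b.hasCompactSupport_normed

theorem mo_congr {g g' : Cn n → ℝ} {x : Cn n} (h : EqOn g g' (ball x b.rOut)) : mo b g x = mo b g' x := by
  refine integral_congr_ae (Eventually.of_forall fun w => ?_)
  by_cases hw : w ∈ ball x b.rOut
  · simp only [h hw]
  · have : b.normed volume (x - w) = 0 := by
      rw [← Function.notMem_support, b.support_normed_eq]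
      rwa [mem_ball_zero_iff, ← dist_eq_norm, dist_comm]
    simp [this]

theorem mo_mem {g : Cn n → ℝ} (hg : LocallyIntegrable g) {x : Cn n} {a a' : ℝ}
    (h : ∀ w ∈ ball x b.rOut, a ≤ g w ∧ g w ≤ a') : a ≤ mo b g x ∧ mo b g x ≤ a' := by
  have h0 := h x (mem_ball_self b.rOut_pos)
  have := dist_convolution_le (μ := volume) (x₀ := x) (z₀ := (a + a') / 2) (ε := (a' - a) / 2) (by linarith)
    b.support_normed_eq.subset b.nonneg_normed b.integral_normed hg.aestronglyMeasurable fun w hw => by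
      rw [Real.dist_eq, abs_le]
      constructor <;> linarith [h w hw]
  rw [← mo_eq, Real.dist_eq, abs_le] at this
  constructor <;> linarith [this.1, this.2]

theorem mo_vb {g φ : Cn n → ℝ} (hg : LocallyIntegrable g) {V : Set (Cn n)} (hV : IsOpen V) (he : EqOn g φ V)
    (husc : UpperSemicontinuousOn φ V) (hb : ∃ B, ∀ w ∈ V, |φ w| ≤ B) {c : (Fin n → Cn n) → ℝ} (h : VB φ V c)
    {x : Cn n} (hx : closedBall x b.rOut ⊆ V) {v : Fin n → Cn n} (hv : LinearIndependent ℂ v) :
    c v ≤ ∑ j, levi (mo b g) x (v j) := by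
  have s1 : ContDiff ℝ ∞ (b.normed volume) := b.contDiff_normed
  have hs : tsupport (fun w => b.normed volume (x - w)) ⊆ closedBall x b.rOut := by
    refine closure_minimal (fun w hw => ?_) isClosed_closedBall
    have : x - w ∈ Function.support (b.normed volume) := hw
    rw [b.support_normed_eq, mem_ball_zero_iff, ← dist_eq_norm, dist_comm] at this
    exact this.le
  have key := stV1 hV husc hb hv (fun w hw q hq hm => h w hw q hq hm v)
    (s1.comp (contDiff_const.sub contDiff_id))
    ((isCompact_closedBall x b.rOut).of_isClosed_subset (isClosed_tsupport _) hs) (hs.trans hx)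
    fun w => b.nonneg_normed _
  have e1 : ∫ w, (b.normed volume ∘ fun w => x - id w) w = 1 :=
    (integral_sub_left_eq_self (b.normed volume) volume x).trans b.integral_normed
  rw [e1, mul_one] at key
  refine key.trans_eq ?_
  have l := fun j => levi_cv hg s1 b.hasCompactSupport_normed x (v j)
  simp only [mo, fun j => (l j).2]
  rw [← integral_finsetSum _ fun j _ => (l j).1]
  refine integral_congr_ae (Eventually.of_forall fun w => ?_)
  have e2 : ∀ u, levi (b.normed volume ∘ fun w => x - id w) w u = levi (b.normed volume) (x - w) u :=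
    levi_refl s1 x w
  simp only [← Finset.mul_sum]
  by_cases hw : w ∈ V
  · simp only [he hw, e2]
  · have : (b.normed volume ∘ fun w => x - id w) =ᶠ[𝓝 w] fun _ => 0 :=
      notMem_tsupport_iff_eventuallyEq.1 fun h' => hw (hx (hs h'))
    simp only [← e2, levi_congr this, levi_const]
    simp

/-- a sequence of bumps with outer radius `ε / (k + 1)` -/
def bump {ε : ℝ} (hε : 0 < ε) (k : ℕ) : ContDiffBump (0 : Cn n) :=
  ⟨ε / (k + 1) / 2, ε / (k + 1), by positivity, half_lt_self (by positivity)⟩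

theorem bump_le {ε : ℝ} (hε : 0 < ε) (k : ℕ) : (bump (n := n) hε k).rOut ≤ ε :=
  div_le_self hε.le (by simp)

theorem bump_tendsto {ε : ℝ} (hε : 0 < ε) : Tendsto (fun k => (bump (n := n) hε k).rOut) atTop (𝓝 0) :=
  tendsto_const_nhds.div_atTop (tendsto_natCast_atTop_atTop.atTop_add tendsto_const_nhds)

theorem mo_ae {ε : ℝ} (hε : 0 < ε) {g : Cn n → ℝ} (hg : LocallyIntegrable g) :
    ∀ᵐ x, Tendsto (fun k => mo (bump hε k) g x) atTop (𝓝 (g x)) := by
  simp only [mo_eq]
  exact ContDiffBump.ae_convolution_tendsto_right_of_locallyIntegrable (K := 2) (bump_tendsto hε)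
    (Eventually.of_forall fun k => by simp only [bump]; linarith) hg

end Crest.Agent.R269.Mo
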