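import Crest.Agent.R269.Moll.A

/-!
# Row 269, block Moll, part B: flat patches of a Riemann domain (helper22)
-/

set_option autoImplicit false
set_option linter.unusedSectionVars false
set_option linter.unusedVariables false

noncomputable section

namespace Crest.Agent.R269.Mo

open Set Metric Filter Topology MeasureTheory
open scoped InnerProductSpace ContDiff

variable {n : ℕ} {D : RDom n} {φ : D.M → ℝ}

theorem symm_pi {e : OpenPartialHomeomorph D.M (Cn n)} (he : D.IsCh e) {y : D.M} (hy : y ∈ e.source) :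
    e.symm (D.π y) = y := by
  rw [← he y hy, e.left_inv hy]

theorem pi_symm {e : OpenPartialHomeomorph D.M (Cn n)} (he : D.IsCh e) {w : Cn n} (hw : w ∈ e.target) :
    D.π (e.symm w) = w := by
  rw [← he _ (e.map_target hw), e.right_inv hw]

/-- A flat chart containing a ball on which `φ` is bounded. -/
structure Patch (D : RDom n) (φ : D.M → ℝ) where
  e : OpenPartialHomeomorph D.M (Cn n)
  c : Cn n
  r : ℝ
  A : ℝ
  ch : D.IsCh e
  pos : 0 < r
  sub : closedBall c (2 * r) ⊆ e.target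
  bd : ∀ w ∈ closedBall c (2 * r), |φ (e.symm w)| ≤ A

namespace Patch

variable (P Q : Patch D φ)

def U : Set D.M := P.e.source ∩ D.π ⁻¹' ball P.c P.r

def g : Cn n → ℝ := (ball P.c (2 * P.r)).indicator (φ ∘ P.e.symm)

theorem isOpen_U : IsOpen P.U := P.e.open_source.inter (isOpen_ball.preimage D.loc.continuous)

variable {P Q}

theorem ball_sub {y : D.M} (hy : y ∈ P.U) {ε : ℝ} (hε : ε ≤ P.r) :
    closedBall (D.π y) ε ⊆ ball P.c (2 * P.r) :=
  closedBall_subset_ball' (by linarith [mem_ball.1 hy.2])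

theorem g_eq {w : Cn n} (hw : w ∈ ball P.c (2 * P.r)) : P.g w = φ (P.e.symm w) := indicator_of_mem hw _

theorem sub' : ball P.c (2 * P.r) ⊆ P.e.target := ball_subset_closedBall.trans P.sub

theorem compat {y : D.M} (hP : y ∈ P.U) (hQ : y ∈ Q.U) {ε : ℝ} (h0 : 0 < ε) (h1 : ε ≤ P.r) (h2 : ε ≤ Q.r) :
    EqOn P.g Q.g (ball (D.π y) ε) := by
  have s1 := ball_subset_closedBall.trans (ball_sub hP h1)
  have s2 := ball_subset_closedBall.trans (ball_sub hQ h2)
  have := (T2Space.isSeparatedMap D.π).eqOn_of_comp_eqOn D.loc.isLocallyInjective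
    (convex_ball (D.π y) ε).isPreconnected (P.e.continuousOn_symm.mono (s1.trans sub'))
    (Q.e.continuousOn_symm.mono (s2.trans sub'))
    (fun w hw => (pi_symm P.ch (sub' (s1 hw))).trans (pi_symm Q.ch (sub' (s2 hw))).symm)
    (mem_ball_self h0) ((symm_pi P.ch hP.1).trans (symm_pi Q.ch hQ.1).symm)
  intro w hw
  rw [g_eq (s1 hw), g_eq (s2 hw), this hw]

variable (P)

theorem g_abs (w : Cn n) : |P.g w| ≤ P.A := by
  by_cases hw : w ∈ ball P.c (2 * P.r)
  · rw [g_eq hw]
    exact P.bd w (ball_subset_closedBall hw)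
  · rw [g, indicator_of_notMem hw, abs_zero]
    exact (abs_nonneg _).trans (P.bd P.c (mem_closedBall_self (by linarith [P.pos])))

theorem locInt (hφ : UpperSemicontinuous φ) : LocallyIntegrable P.g := by
  let _ : MeasurableSpace D.M := borel _
  have : BorelSpace D.M := ⟨rfl⟩
  refine Integrable.locallyIntegrable ((integrable_indicator_iff measurableSet_ball).2
    ⟨(hφ.measurable.comp_aemeasurable ((P.e.continuousOn_symm.mono sub').aemeasurable
      measurableSet_ball)).aestronglyMeasurable, .restrict_of_bounded (C := P.A) measure_ball_lt_top ?_⟩)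
  exact (ae_restrict_iff' measurableSet_ball).2 (Eventually.of_forall fun w hw =>
      P.bd w (ball_subset_closedBall hw))

theorem lebesgue {V K : Set D.M} (hV : IsOpen V) (hK : IsCompact K) (h : K ⊆ V) :
    ∃ δ > 0, ∀ y ∈ K ∩ P.U, ∀ w ∈ ball (D.π y) δ, P.e.symm w ∈ V := by
  have s : closedBall P.c P.r ⊆ P.e.target :=
    (closedBall_subset_closedBall (by linarith [P.pos])).trans P.sub
  have hc : IsCompact (closedBall P.c P.r ∩ P.e.symm ⁻¹' K) :=
    (isCompact_closedBall _ _).of_isClosed_subset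
      ((P.e.continuousOn_symm.mono s).preimage_isClosed_of_isClosed isClosed_closedBall hK.isClosed)
      inter_subset_left
  obtain ⟨δ, h0, hδ⟩ := hc.exists_thickening_subset_open (P.e.isOpen_inter_preimage_symm hV)
    fun w hw => ⟨s hw.1, h hw.2⟩
  refine ⟨δ, h0, fun y hy w hw => (hδ (mem_thickening_iff.2 ⟨D.π y, ⟨ball_subset_closedBall hy.2.2, ?_⟩, hw⟩)).2⟩
  show P.e.symm (D.π y) ∈ K
  rw [symm_pi P.ch hy.2.1]
  exact hy.1

theorem ucont {ψ : D.M → ℝ} (hψ : Continuous ψ) :
    ∃ δ > 0, ∀ y ∈ P.U, ∀ w ∈ ball (D.π y) δ, w ∈ ball P.c (2 * P.r) → |ψ (P.e.symm w) - ψ y| ≤ 1 := by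
  have := (isCompact_closedBall P.c (2 * P.r)).uniformContinuousOn_of_continuous
    (hψ.comp_continuousOn (P.e.continuousOn_symm.mono P.sub))
  obtain ⟨δ, h0, hδ⟩ := Metric.uniformContinuousOn_iff.1 this 1 one_pos
  refine ⟨δ, h0, fun y hy w hw hw' => ?_⟩
  have := hδ w (ball_subset_closedBall hw') (D.π y)
    (ball_subset_closedBall (ball_sub hy le_rfl (mem_closedBall_self P.pos.le))) hw
  simp only [Function.comp, symm_pi P.ch hy.1, Real.dist_eq] at this
  exact this.le

end Patch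

theorem exists_patch (hφ : D.Wt φ) (x : D.M) : ∃ P : Patch D φ, x ∈ P.U := by
  obtain ⟨e, hx, he⟩ := D.loc x
  have ch : D.IsCh e := fun y _ => by rw [he]
  obtain ⟨B, hB⟩ := hφ.lb x
  have h1 := hφ.usc x (φ x + 1) (lt_add_one _)
  have hc : ContinuousAt e.symm (D.π x) := he ▸ e.continuousAt_symm (e.map_source hx)
  have h2 : ∀ᶠ w in 𝓝 (D.π x), w ∈ e.target ∧ -B ≤ φ (e.symm w) ∧ φ (e.symm w) < φ x + 1 := by
    refine Eventually.and (e.open_target.mem_nhds (he ▸ e.map_source hx))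
      (hc.eventually (p := fun y => -B ≤ φ y ∧ φ y < φ x + 1) ?_)
    rw [symm_pi ch hx]
    exact hB.and h1
  obtain ⟨r, r0, hr⟩ := nhds_basis_closedBall.eventually_iff.1 h2
  have e2 : 2 * (r / 2) = r := by ring
  refine ⟨⟨e, D.π x, r / 2, |B| + |φ x + 1|, ch, by linarith, fun w hw => (hr (e2 ▸ hw)).1, fun w hw => ?_⟩,
    hx, mem_ball_self (by linarith : 0 < r / 2)⟩
  obtain ⟨-, a, b⟩ := hr (e2 ▸ hw)
  rw [abs_le]
  constructor <;> linarith [le_abs_self B, le_abs_self (φ x + 1), abs_nonneg B, abs_nonneg (φ x + 1)]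

end Crest.Agent.R269.Mo
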